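import Vale.Agent.P151.Core
import Vale.Agent.P151.Final

namespace Vale.Agent.Results.P151.General

open Vale.Agent.P151

universe u v

theorem result :
    (∀ (V : Type u) (Γ : Type v) [Group Γ] [MulAction Γ V] (G : SimpleGraph V) [G.LocallyFinite],
      G.Connected → (∀ (γ : Γ) (a b : V), G.Adj a b → G.Adj (γ • a) (γ • b)) →
      Finite (MulAction.orbitRel.Quotient Γ V) →
      ∀ φ : Γ →* Multiplicative (ℝ × ℝ), (∀ (γ : Γ) (x : V), γ • x = x → φ γ = 1) →
      (∃ γ₁ γ₂ : Γ, LinearIndependent ℝ ![(φ γ₁).toAdd, (φ γ₂).toAdd]) →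
      pc G < 1 ∧ ProbabilityTheory.setBernoulli G.edgeSet (pc G) (HasInfiniteCluster V) = 0) ∧
    (∀ (Γ : Type v) [Group Γ] (S : Set Γ), S.Finite → Subgroup.closure S = ⊤ →
      ∀ (H : Subgroup Γ) [H.FiniteIndex] (φ : H →* Multiplicative (ℤ × ℤ)),
      Function.Surjective φ →
      pc (SimpleGraph.mulCayley S) < 1 ∧
        ProbabilityTheory.setBernoulli (SimpleGraph.mulCayley S).edgeSet
          (pc (SimpleGraph.mulCayley S)) (HasInfiniteCluster Γ) = 0) ∧
    (∀ d : ℕ, 2 ≤ d → pc (Zd d) < 1 ∧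
      ProbabilityTheory.setBernoulli (Zd d).edgeSet (pc (Zd d))
        (HasInfiniteCluster (Fin d → ℤ)) = 0) :=
  ⟨fun _ _ _ _ G _ hG hact hqt φ hφ hrank => final_of_hom (core _ _) G hG hact hqt φ hφ hrank,
    fun _ _ S hS hgen H _ φ hφ => final_virt H (core _ _) S hS hgen φ hφ,
    fun d hd => final_Zd d hd (core _ _)⟩

end Vale.Agent.Results.P151.General
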