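import Vale.Agent.P151.Core
import Vale.Agent.P151.Final
import Vale.Agent.P151G.Final

namespace Vale.Agent.Results.P151.Growth

open Vale.Agent.P151

universe u v

theorem result :
    (∀ (V : Type u) (Γ : Type v) [Group Γ] [MulAction Γ V] (G : SimpleGraph V) [G.LocallyFinite],
      G.Connected → (∀ (γ : Γ) (a b : V), G.Adj a b → G.Adj (γ • a) (γ • b)) →
      Finite (MulAction.orbitRel.Quotient Γ V) →
      ((∃ o : V,
          (∀ ε : ℝ, 0 < ε → ∀ r₀ : ℕ, ∃ r : ℕ, r₀ ≤ r ∧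
            ({v | G.dist o v ≤ r}.ncard : ℝ) ≤ Real.exp (ε * r)) ∧
          (∃ c : ℝ, 0 < c ∧ ∃ r₀ : ℕ, ∀ r : ℕ, r₀ ≤ r →
            Real.exp (c * Real.sqrt r) ≤ ({v | G.dist o v ≤ r}.ncard : ℝ))) ∨
        (∃ φ : Γ →* Multiplicative (ℝ × ℝ), (∀ (γ : Γ) (x : V), γ • x = x → φ γ = 1) ∧
          ∃ γ₁ γ₂ : Γ, LinearIndependent ℝ ![(φ γ₁).toAdd, (φ γ₂).toAdd])) →
      pc G < 1 ∧ ProbabilityTheory.setBernoulli G.edgeSet (pc G) (HasInfiniteCluster V) = 0) ∧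
    (∀ (Γ : Type v) [Group Γ] (S : Set Γ), S.Finite → Subgroup.closure S = ⊤ →
      ∀ (H : Subgroup Γ) [H.FiniteIndex] (φ : H →* Multiplicative (ℤ × ℤ)),
      Function.Surjective φ →
      pc (SimpleGraph.mulCayley S) < 1 ∧
        ProbabilityTheory.setBernoulli (SimpleGraph.mulCayley S).edgeSet
          (pc (SimpleGraph.mulCayley S)) (HasInfiniteCluster Γ) = 0) ∧
    (∀ d : ℕ, 2 ≤ d → pc (Zd d) < 1 ∧
      ProbabilityTheory.setBernoulli (Zd d).edgeSet (pc (Zd d))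
        (HasInfiniteCluster (Fin d → ℤ)) = 0) :=
  ⟨fun _ _ _ _ G _ hG hact hqt h => h.elim
      (fun ⟨o, h1, h2⟩ => Vale.Agent.P151G.final G hG hact hqt o h1 h2)
      (fun ⟨φ, hφ, hrank⟩ => final_of_hom (core _ _) G hG hact hqt φ hφ hrank),
    fun _ _ S hS hgen H _ φ hφ => final_virt H (core _ _) S hS hgen φ hφ,
    fun d hd => final_Zd d hd (core _ _)⟩

end Vale.Agent.Results.P151.Growth
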