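import Vale.Agent.P151.Glue

namespace Vale.Agent.Results.P151.KozmaNitzan

/-- Probability of the event `E` when each edge `e` of the finite edge set `F` is open
independently with probability `w e`; a configuration is the set of its open edges. -/
noncomputable def prob {V : Type*} [DecidableEq V] (F : Finset (Sym2 V)) (w : Sym2 V → ℝ)
    (E : Set (Finset (Sym2 V))) : ℝ :=
  ∑ ω ∈ F.powerset, E.indicator (fun ω => (∏ e ∈ ω, w e) * ∏ e ∈ F \ ω, (1 - w e)) ω

/-- The event that `a` and `b` are joined by a path of open edges. -/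
def joined {V : Type*} (a b : V) : Set (Finset (Sym2 V)) :=
  {ω | (SimpleGraph.fromEdgeSet (ω : Set (Sym2 V))).Reachable a b}

theorem result {V : Type*} [DecidableEq V] (F : Finset (Sym2 V)) (w : Sym2 V → ℝ)
    (hw : ∀ e, 0 ≤ w e ∧ w e ≤ 1) (o b : V) (A : Finset V) (m : ℝ)
    (hA : ∀ a ∈ A, m ≤ prob F w (joined a b)) :
    m * prob F w (⋃ a ∈ A, joined o a) ≤ prob F w (joined o b) := by
  have h1 : ∀ E : Set (Finset (Sym2 V)),
      prob F w E = Vale.Agent.P151.Ex w F (fun ω => Vale.Agent.P151.ind (ω ∈ E)) := by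
    intro E
    refine Finset.sum_congr rfl fun ω _ => ?_
    beta_reduce
    by_cases h : ω ∈ E
    · rw [Set.indicator_of_mem h, Vale.Agent.P151.ind_pos h, mul_one]
    · rw [Set.indicator_of_notMem h, Vale.Agent.P151.ind_neg h, mul_zero]
  have h2 : ∀ (x y : V) (ω : Finset (Sym2 V)), ω ∈ joined x y ↔ Vale.Agent.P151.Conn ω y x := by
    intro x y ω
    rw [joined, Set.mem_ofPred_eq, SimpleGraph.reachable_comm,
      SimpleGraph.reachable_iff_reflTransGen]
    constructor
    · intro h
      induction h with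
      | refl => exact Vale.Agent.P151.Conn.refl _ _
      | tail _ h3 ih => exact ih.tail ((SimpleGraph.fromEdgeSet_adj _).1 h3).1
    · intro h
      induction h with
      | refl => exact Relation.ReflTransGen.refl
      | @tail u v _ h3 ih =>
        by_cases h4 : u = v
        · exact h4 ▸ ih
        · exact ih.tail ((SimpleGraph.fromEdgeSet_adj _).2 ⟨h3, h4⟩)
  have h3 : ∀ x : V, prob F w (joined x b) =
      Vale.Agent.P151.Ex w F (Vale.Agent.P151.hit x {b}) := by
    intro x
    rw [h1]
    exact Vale.Agent.P151.Ex_congr fun ω _ => Vale.Agent.P151.ind_congr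
      ((h2 x b ω).trans Vale.Agent.P151.mem_Cl_singleton.symm)
  have h4 : prob F w (⋃ a ∈ A, joined o a) =
      Vale.Agent.P151.Ex w F (Vale.Agent.P151.hit o A) := by
    rw [h1]
    refine Vale.Agent.P151.Ex_congr fun ω _ => Vale.Agent.P151.ind_congr ?_
    simp only [Set.mem_iUnion, h2, exists_prop]
    rfl
  rw [h3, h4]
  exact (Vale.Agent.P151.glue_mul (T := {b}) hw A fun a ha => (h3 a) ▸ hA a ha).trans
    (Vale.Agent.P151.Ex_mono hw fun _ _ => Vale.Agent.P151.ind_mono fun h => h.2)

end Vale.Agent.Results.P151.KozmaNitzan
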