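import Vale.Agent.P151.Core
import Vale.Agent.P151.Final

namespace Vale.Agent.Results.P151.Lattice

open Vale.Agent.P151

theorem result (d : ℕ) (hd : 2 ≤ d) :
    pc (Zd d) < 1 ∧
      ProbabilityTheory.setBernoulli (Zd d).edgeSet (pc (Zd d))
        (HasInfiniteCluster (Fin d → ℤ)) = 0 :=
  final_Zd d hd (core _ _)

end Vale.Agent.Results.P151.Lattice
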